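import Mathlib

namespace Vale.Agent.Results.P040.MonotoneCollinear

open Finset

/-- arithmetic: if `p + q = m` then `2 * (⌊m/2⌋ * ⌊(m-1)/2⌋) ≤ p (p - 1) + q (q - 1)`. -/
theorem arith (p q : ℕ) :
    2 * ((p + q) / 2 * ((p + q - 1) / 2)) ≤ (p * p - p) + (q * q - q) := by
  obtain ⟨P, hP⟩ : ∃ P, P + p = p * p := ⟨p * p - p, Nat.sub_add_cancel (Nat.le_mul_self p)⟩
  obtain ⟨Q, hQ⟩ : ∃ Q, Q + q = q * q := ⟨q * q - q, Nat.sub_add_cancel (Nat.le_mul_self q)⟩
  have hP' : p * p - p = P := by omega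
  have hQ' : q * q - q = Q := by omega
  rw [hP', hQ']
  rcases Nat.even_or_odd' (p + q) with ⟨a, ha | ha⟩
  · rcases a with _ | b
    · have h1 : (p + q) / 2 = 0 := by omega
      rw [h1]
      simp
    · have h1 : (p + q) / 2 = b + 1 := by omega
      have h2 : (p + q - 1) / 2 = b := by omega
      rw [h1, h2]
      zify at hP hQ ha ⊢
      nlinarith [sq_nonneg ((p : ℤ) - q)]
  · have h1 : (p + q) / 2 = a := by omega
    have h2 : (p + q - 1) / 2 = a := by omega
    rw [h1, h2]
    have h3 : (p : ℤ) - q ≠ 0 := by omega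
    have h4 : 1 ≤ ((p : ℤ) - q) ^ 2 := by
      have h5 : 0 < ((p : ℤ) - q) ^ 2 := by positivity
      linarith
    zify at hP hQ ha ⊢
    nlinarith [h4]

/-- If a set `S` of ordered pairs contains every ordered pair of distinct indices of the same
class, then `|S| ≥ 2 ⌊m/2⌋ ⌊(m-1)/2⌋`. -/
theorem count_sym (m : ℕ) (S : Finset (Fin m × Fin m)) (c : Fin m → Prop) [DecidablePred c]
    (h : ∀ i k, i ≠ k → (c i ↔ c k) → (i, k) ∈ S) :
    2 * (m / 2 * ((m - 1) / 2)) ≤ S.card := by
  classical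
  set P := (univ : Finset (Fin m)).filter c with hPdef
  set N := (univ : Finset (Fin m)).filter (fun i => ¬ c i) with hNdef
  have hcard : P.card + N.card = m := by
    have := Finset.card_filter_add_card_filter_not (s := (univ : Finset (Fin m))) c
    simpa using this
  have hsub : P.offDiag ∪ N.offDiag ⊆ S := by
    intro ⟨i, k⟩ hik
    rw [Finset.mem_union] at hik
    rcases hik with hik | hik
    · rw [Finset.mem_offDiag] at hik
      simp only [hPdef, Finset.mem_filter, Finset.mem_univ, true_and] at hik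
      exact h i k hik.2.2 (iff_of_true hik.1 hik.2.1)
    · rw [Finset.mem_offDiag] at hik
      simp only [hNdef, Finset.mem_filter, Finset.mem_univ, true_and] at hik
      exact h i k hik.2.2 (iff_of_false hik.1 hik.2.1)
  have hdisj : Disjoint P.offDiag N.offDiag := by
    rw [Finset.disjoint_left]
    intro ⟨i, k⟩ h1 h2
    rw [Finset.mem_offDiag] at h1 h2
    simp only [hPdef, hNdef, Finset.mem_filter, Finset.mem_univ, true_and] at h1 h2
    exact h2.1 h1.1
  have h1 : (P.offDiag ∪ N.offDiag).card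
      = (P.card * P.card - P.card) + (N.card * N.card - N.card) := by
    rw [Finset.card_union_of_disjoint hdisj, Finset.offDiag_card, Finset.offDiag_card]
  have h3 := Finset.card_le_card hsub
  have h4 := arith P.card N.card
  rw [hcard] at h4
  omega

/-- If for every two distinct indices of the same class at least one of the two ordered pairs
lies in `S`, then `|S| ≥ ⌊m/2⌋ ⌊(m-1)/2⌋`. -/
theorem count_pairs (m : ℕ) (S : Finset (Fin m × Fin m)) (c : Fin m → Prop) [DecidablePred c]
    (h : ∀ i k, i ≠ k → (c i ↔ c k) → (i, k) ∈ S ∨ (k, i) ∈ S) :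
    m / 2 * ((m - 1) / 2) ≤ S.card := by
  classical
  have h1 := count_sym m (S ∪ S.image Prod.swap) c (by
    intro i k hik hc
    rw [Finset.mem_union]
    rcases h i k hik hc with h1 | h1
    · exact Or.inl h1
    · right
      rw [Finset.mem_image]
      exact ⟨(k, i), h1, rfl⟩)
  have h2 : (S ∪ S.image Prod.swap).card ≤ S.card + S.card :=
    le_trans (Finset.card_union_le _ _) (Nat.add_le_add_left Finset.card_image_le _)
  omega

/-- Two continuous curves over the height coordinate: if their horizontal order at height `0`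
and at height `a` is reversed (or they touch), they meet at some height between. -/
theorem cross_of_sign {a b : ℝ} {g h : ℝ → ℝ}
    (hg : ContinuousOn g (Set.uIcc 0 a)) (hh : ContinuousOn h (Set.uIcc 0 b))
    (hab : a ∈ Set.uIcc 0 b)
    (hs : (g 0 - h 0) * (g a - h a) ≤ 0) :
    ∃ y ∈ Set.uIcc 0 a ∩ Set.uIcc 0 b, g y = h y := by
  have hsub : Set.uIcc 0 a ⊆ Set.uIcc 0 b := Set.uIcc_subset_uIcc Set.left_mem_uIcc hab
  have hD : ContinuousOn (fun y => g y - h y) (Set.uIcc 0 a) := hg.sub (hh.mono hsub)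
  have h0 : (0 : ℝ) ∈ Set.uIcc (g 0 - h 0) (g a - h a) := by
    rcases le_total (g 0 - h 0) 0 with h1 | h1
    · rcases le_total 0 (g a - h a) with h2 | h2
      · exact Set.mem_uIcc_of_le h1 h2
      · have h3 : (g 0 - h 0) * (g a - h a) = 0 :=
          le_antisymm hs (mul_nonneg_of_nonpos_of_nonpos h1 h2)
        rcases mul_eq_zero.1 h3 with h4 | h4
        · exact Set.mem_uIcc_of_ge h2 (by rw [h4])
        · exact Set.mem_uIcc_of_le h1 (by rw [h4])
    · rcases le_total (g a - h a) 0 with h2 | h2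
      · exact Set.mem_uIcc_of_ge h2 h1
      · have h3 : (g 0 - h 0) * (g a - h a) = 0 :=
          le_antisymm hs (mul_nonneg h1 h2)
        rcases mul_eq_zero.1 h3 with h4 | h4
        · exact Set.mem_uIcc_of_le (by rw [h4]) h2
        · exact Set.mem_uIcc_of_ge (by rw [h4]) h1
  obtain ⟨y, hy, hy0⟩ := intermediate_value_uIcc hD h0
  refine ⟨y, ⟨hy, hsub hy⟩, ?_⟩
  have : g y - h y = 0 := hy0
  linarith

theorem sign_lemma {m : ℕ} (x w : Fin m → ℝ) (c : ℝ) (hx : Function.Injective x) (i k : Fin m)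
    (hik : i ≠ k) (hc : (0 ≤ c - w i) ↔ (0 ≤ c - w k)) :
    (x i - x k) * (c - w k) ≤ 0 ∨ (x k - x i) * (c - w i) ≤ 0 := by
  rcases lt_or_gt_of_ne (fun h => hik (hx h)) with hlt | hgt
  · by_cases hk : 0 ≤ c - w k
    · left
      exact mul_nonpos_of_nonpos_of_nonneg (by linarith) hk
    · right
      have hi : ¬ 0 ≤ c - w i := fun h => hk (hc.1 h)
      push Not at hi
      exact mul_nonpos_of_nonneg_of_nonpos (by linarith) hi.le
  · by_cases hk : 0 ≤ c - w k
    · right
      exact mul_nonpos_of_nonpos_of_nonneg (by linarith) (hc.2 hk)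
    · left
      push Not at hk
      exact mul_nonpos_of_nonneg_of_nonpos (by linarith) hk.le

/-- **Zarankiewicz's bound for drawings of `K_{m,n}` with one class on a line and edges monotone
in the orthogonal direction.**  The `m` vertices of the first class are the points `(x i, 0)` of
the horizontal axis, the `n` vertices of the second class are points `(u j, v j)` off the axis,
and the edge joining them is the curve `{(f i j y, y)}` for `y` between `0` and `v j`, where
`f i j` is continuous.  Then at least `Z(m,n) = ⌊m/2⌋⌊(m-1)/2⌋⌊n/2⌋⌊(n-1)/2⌋` unordered pairs of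
edges without a common endpoint have a common point (the count below is over ordered pairs). -/
theorem result (m n : ℕ) (x : Fin m → ℝ) (hx : Function.Injective x)
    (u v : Fin n → ℝ) (hv : ∀ j, v j ≠ 0)
    (f : Fin m → Fin n → ℝ → ℝ)
    (hf : ∀ i j, ContinuousOn (f i j) (Set.uIcc 0 (v j)))
    (hf0 : ∀ i j, f i j 0 = x i) (hf1 : ∀ i j, f i j (v j) = u j) :
    2 * ((m / 2) * ((m - 1) / 2) * ((n / 2) * ((n - 1) / 2))) ≤
      Set.ncard {q : (Fin m × Fin n) × (Fin m × Fin n) |
        q.1.1 ≠ q.2.1 ∧ q.1.2 ≠ q.2.2 ∧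
        ∃ y ∈ Set.uIcc 0 (v q.1.2) ∩ Set.uIcc 0 (v q.2.2),
          f q.1.1 q.1.2 y = f q.2.1 q.2.2 y} := by
  classical
  have hrw : {q : (Fin m × Fin n) × (Fin m × Fin n) |
        q.1.1 ≠ q.2.1 ∧ q.1.2 ≠ q.2.2 ∧
        ∃ y ∈ Set.uIcc 0 (v q.1.2) ∩ Set.uIcc 0 (v q.2.2),
          f q.1.1 q.1.2 y = f q.2.1 q.2.2 y} =
      (((Finset.univ : Finset ((Fin m × Fin n) × (Fin m × Fin n))).filter (fun q =>
        q.1.1 ≠ q.2.1 ∧ q.1.2 ≠ q.2.2 ∧
        ∃ y ∈ Set.uIcc 0 (v q.1.2) ∩ Set.uIcc 0 (v q.2.2),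
          f q.1.1 q.1.2 y = f q.2.1 q.2.2 y) : Finset _) : Set _) := by
    ext q
    simp
  rw [hrw, Set.ncard_coe_finset]
  -- stars of two vertices on the same side cross at least `⌊m/2⌋⌊(m-1)/2⌋` times
  have hpair : ∀ j l, 0 < v j * v l →
      m / 2 * ((m - 1) / 2) ≤ ((univ : Finset (Fin m × Fin m)).filter (fun r =>
        r.1 ≠ r.2 ∧ ∃ y ∈ Set.uIcc 0 (v j) ∩ Set.uIcc 0 (v l), f r.1 j y = f r.2 l y)).card := by
    intro j l hpos
    by_cases hlow : v j ∈ Set.uIcc 0 (v l)
    · apply count_pairs m _ (fun k => 0 ≤ u j - f k l (v j))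
      intro i k hik hc
      rcases sign_lemma x (fun k => f k l (v j)) (u j) hx i k hik hc with h | h
      · left
        rw [Finset.mem_filter]
        refine ⟨Finset.mem_univ _, hik, ?_⟩
        apply cross_of_sign (hf i j) (hf k l) hlow
        rw [hf0, hf0, hf1]
        exact h
      · right
        rw [Finset.mem_filter]
        refine ⟨Finset.mem_univ _, hik.symm, ?_⟩
        apply cross_of_sign (hf k j) (hf i l) hlow
        rw [hf0, hf0, hf1]
        exact h
    · have hlow' : v l ∈ Set.uIcc 0 (v j) := by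
        rw [Set.mem_uIcc] at hlow ⊢
        push Not at hlow
        rcases lt_or_gt_of_ne (hv j) with hj | hj
        · have hl : v l < 0 := by nlinarith
          right
          refine ⟨?_, hl.le⟩
          by_contra hcon
          push Not at hcon
          exact absurd (hlow.2 hcon.le) (not_lt.2 hj.le)
        · have hl : 0 < v l := by nlinarith
          left
          refine ⟨hl.le, ?_⟩
          by_contra hcon
          push Not at hcon
          exact absurd (hlow.1 hj.le) (not_lt.2 hcon.le)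
      apply count_pairs m _ (fun i => 0 ≤ u l - f i j (v l))
      intro i k hik hc
      rcases sign_lemma x (fun i => f i j (v l)) (u l) hx i k hik hc with h | h
      · right
        rw [Finset.mem_filter]
        refine ⟨Finset.mem_univ _, hik.symm, ?_⟩
        have h1 := cross_of_sign (hf i l) (hf k j) hlow' (by rw [hf0, hf0, hf1]; exact h)
        obtain ⟨y, hy, hy'⟩ := h1
        exact ⟨y, ⟨hy.2, hy.1⟩, hy'.symm⟩
      · left
        rw [Finset.mem_filter]
        refine ⟨Finset.mem_univ _, hik, ?_⟩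
        have h1 := cross_of_sign (hf k l) (hf i j) hlow' (by rw [hf0, hf0, hf1]; exact h)
        obtain ⟨y, hy, hy'⟩ := h1
        exact ⟨y, ⟨hy.2, hy.1⟩, hy'.symm⟩
  -- the ordered pairs of distinct second-class vertices on the same side
  set SP : Finset (Fin n × Fin n) :=
    (univ : Finset (Fin n × Fin n)).filter (fun p => p.1 ≠ p.2 ∧ 0 < v p.1 * v p.2) with hSP
  have hSPcard : 2 * (n / 2 * ((n - 1) / 2)) ≤ SP.card := by
    apply count_sym n SP (fun j => 0 < v j)
    intro j l hjl hc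
    rw [hSP, Finset.mem_filter]
    refine ⟨Finset.mem_univ _, hjl, ?_⟩
    by_cases hj : 0 < v j
    · exact mul_pos hj (hc.1 hj)
    · have hl : ¬ 0 < v l := fun h => hj (hc.2 h)
      push Not at hj hl
      exact mul_pos_of_neg_of_neg (lt_of_le_of_ne hj (hv j)) (lt_of_le_of_ne hl (hv l))
  set C : Fin n × Fin n → Finset (Fin m × Fin m) := fun p =>
    (univ : Finset (Fin m × Fin m)).filter (fun r =>
      r.1 ≠ r.2 ∧ ∃ y ∈ Set.uIcc 0 (v p.1) ∩ Set.uIcc 0 (v p.2), f r.1 p.1 y = f r.2 p.2 y)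
    with hC
  have hsum : SP.card * (m / 2 * ((m - 1) / 2)) ≤ ∑ p ∈ SP, (C p).card := by
    rw [← smul_eq_mul]
    apply Finset.card_nsmul_le_sum
    intro p hp
    rw [hSP, Finset.mem_filter] at hp
    exact hpair p.1 p.2 hp.2.2
  have hinj : (SP.sigma C).card ≤
      ((Finset.univ : Finset ((Fin m × Fin n) × (Fin m × Fin n))).filter (fun q =>
        q.1.1 ≠ q.2.1 ∧ q.1.2 ≠ q.2.2 ∧
        ∃ y ∈ Set.uIcc 0 (v q.1.2) ∩ Set.uIcc 0 (v q.2.2),
          f q.1.1 q.1.2 y = f q.2.1 q.2.2 y)).card := by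
    apply Finset.card_le_card_of_injOn
      (fun s : (Σ _ : Fin n × Fin n, Fin m × Fin m) => ((s.2.1, s.1.1), (s.2.2, s.1.2)))
    · intro s hs
      have hs' := Finset.mem_sigma.1 (Finset.mem_coe.1 hs)
      have h1 := hs'.1
      have h2 := hs'.2
      rw [hSP, Finset.mem_filter] at h1
      rw [hC, Finset.mem_filter] at h2
      rw [Finset.mem_coe, Finset.mem_filter]
      exact ⟨Finset.mem_univ _, h2.2.1, h1.2.1, h2.2.2⟩
    · rintro ⟨⟨j, l⟩, ⟨i, k⟩⟩ _ ⟨⟨j', l'⟩, ⟨i', k'⟩⟩ _ heq
      simp only [Prod.mk.injEq] at heq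
      obtain ⟨⟨rfl, rfl⟩, rfl, rfl⟩ := heq
      rfl
  rw [Finset.card_sigma] at hinj
  have hfin : 2 * (m / 2 * ((m - 1) / 2) * (n / 2 * ((n - 1) / 2)))
      ≤ SP.card * (m / 2 * ((m - 1) / 2)) := by
    calc 2 * (m / 2 * ((m - 1) / 2) * (n / 2 * ((n - 1) / 2)))
        = (2 * (n / 2 * ((n - 1) / 2))) * (m / 2 * ((m - 1) / 2)) := by ring
      _ ≤ SP.card * (m / 2 * ((m - 1) / 2)) := Nat.mul_le_mul_right _ hSPcard
  exact le_trans hfin (le_trans hsum hinj)

end Vale.Agent.Results.P040.MonotoneCollinear
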